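import Vale.Agent.P097.Symmetric
import Vale.Agent.P097.Disc

open Complex Set

namespace Vale.Agent.Results.P097.SymmetricTables

open Vale.Agent.P097

theorem result :
    (∀ (γ : ℝ → ℂ) (θ : ℝ → ℝ) (L η : ℝ) (c₀ : ℂ) (k : ℕ),
      0 < L → (∀ s, γ (s + L) = γ s) → (∀ s, θ (s + L) = θ s + 2 * Real.pi) →
      ContDiff ℝ (⊤ : ℕ∞) θ → (∀ s, 0 < deriv θ s) →
      (∀ s, HasDerivAt γ (exp ((θ s : ℝ) * I)) s) →
      2 ≤ k → (∀ s, γ (s + L / k) - c₀ = exp ((2 * Real.pi / k : ℝ) * I) * (γ s - c₀)) →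
      Real.pi / k < η →
      (∀ s δ : ℝ, 0 < δ → δ < η → δ < Real.pi → ∃ f, InvariantGraph γ θ L f ∧ f s = δ) →
      ∃ r, 0 < r ∧ range γ = Metric.sphere c₀ r) ∧
    (∀ δ : ℝ, δ ∈ Ioo 0 Real.pi →
      InvariantGraph (fun s => exp ((s : ℝ) * I)) (fun s => s + Real.pi / 2) (2 * Real.pi)
        (fun _ => δ)) := by
  refine ⟨fun γ θ L η c₀ k hL hp hθ hsm hpos hd hk hsym hη hfol => ?_, fun δ h => disc_graph h⟩
  have hk2 : (2 : ℝ) ≤ k := by exact_mod_cast hk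
  have hpi := Real.pi_pos
  have hkp : (0 : ℝ) < k := by linarith
  refine symmetric_disc ⟨hL, hp, hθ, hd, hsm.differentiable (by simp), hpos⟩ hk hsym fun s => ?_
  refine hfol s _ (by positivity) hη ?_
  rw [div_lt_iff₀ hkp]; nlinarith

end Vale.Agent.Results.P097.SymmetricTables
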